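import Mathlib
import Vale.Agent.P110.Core

namespace Vale.Agent.Results.P110.LogFlatness

/-- The real Littlewood polynomial `P_ε(z) = ∑_{k < N} ε_k z^k`. -/
noncomputable def littlewood (N : ℕ) (ε : Fin N → ℝ) (z : ℂ) : ℂ :=
  ∑ k : Fin N, (ε k : ℂ) * z ^ (k : ℕ)

/-- For every length `N ≥ 1` and all signs `ε_k = ±1`, the polynomial `P_ε` satisfies
`max_{|z| = 1} |P_ε(z)|² ≥ N + (log N) / 8` and `min_{|z| = 1} |P_ε(z)|² ≤ N - (log N) / 8`. -/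
theorem result (N : ℕ) (hN : 1 ≤ N) (ε : Fin N → ℝ) (hε : ∀ k, ε k = 1 ∨ ε k = -1) :
    (∃ z : ℂ, ‖z‖ = 1 ∧ (N : ℝ) + Real.log N / 8 ≤ ‖littlewood N ε z‖ ^ 2) ∧
    (∃ z : ℂ, ‖z‖ = 1 ∧ ‖littlewood N ε z‖ ^ 2 ≤ (N : ℝ) - Real.log N / 8) := by
  let e : ℕ → ℝ := fun k => if h : k < N then ε ⟨k, h⟩ else 1
  have he : ∀ k, e k = 1 ∨ e k = -1 := by
    intro k
    show (if h : k < N then ε ⟨k, h⟩ else 1) = 1 ∨ (if h : k < N then ε ⟨k, h⟩ else 1) = -1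
    split_ifs with h
    · exact hε _
    · exact Or.inl rfl
  have hF : ∀ z, littlewood N ε z = P110.F N e z := by
    intro z
    unfold littlewood P110.F
    rw [Finset.sum_range]
    refine Finset.sum_congr rfl fun k _ => ?_
    have : e (k : ℕ) = ε k := by
      show (if h : (k : ℕ) < N then ε ⟨k, h⟩ else 1) = ε k
      rw [dif_pos k.2]
    rw [this]
  have hc : ContinuousOn (fun z => ‖P110.F N e z‖ ^ 2) (Metric.sphere (0 : ℂ) 1) :=
    ((P110.F_cont N e).norm.pow 2).continuousOn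
  have hne : (Metric.sphere (0 : ℂ) 1).Nonempty := ⟨1, by simp⟩
  obtain ⟨z1, hz1, hmax⟩ := (isCompact_sphere (0 : ℂ) 1).exists_isMaxOn hne hc
  obtain ⟨z2, hz2, hmin⟩ := (isCompact_sphere (0 : ℂ) 1).exists_isMinOn hne hc
  rw [mem_sphere_zero_iff_norm] at hz1 hz2
  refine ⟨⟨z1, hz1, ?_⟩, ⟨z2, hz2, ?_⟩⟩
  · rw [hF]
    refine P110.upper N hN e he _ fun z hz => ?_
    exact hmax (mem_sphere_zero_iff_norm.2 hz)
  · rw [hF]
    refine P110.lower N hN e he _ fun z hz => ?_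
    exact hmin (mem_sphere_zero_iff_norm.2 hz)

end Vale.Agent.Results.P110.LogFlatness
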